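import Vale.Agent.P011.E6O.H69.Res
import Vale.Agent.P011.E6O.Defs2
import Vale.Agent.P011.E6.Pos3

/-!
Block E6O: the row RES in its literal form.
-/

open NumberField

namespace Vale.Agent.P011.E6O

open Vale.Agent.P011.MPQ Vale.Agent.P011.D4 Vale.Agent.P011.D4.Oct Vale.Agent.P011.E6
open Vale.Agent.P011.E6I (MQ toMQ)

variable {k E : Type} [Field k] [NumberField k] [Field E] [NumberField E] [Algebra k E]
  {ρ σ : E ≃ₐ[k] E} {lam : Eˣ} {g : Fin 3 → Eˣ} {al s : E} {a b c : kˣ}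
  (H : Hyp ρ σ lam g al s a b c)

include H

theorem index_top (h : Res ρ σ lam g a b c = GO ρ σ lam g a b c)
    (N : Subgroup (GO ρ σ lam g a b c)) (hN : N.index ≠ 0) : N = ⊤ := top_of_Res h hN

theorem aut_Res (f : AutC a b c) {φ : AlbL E a b c ≃ₗ[E] AlbL E a b c}
    (hφ : ∀ x : Alb a b c, φ (aup E x) = aup E (Alb.omapA f.1 x)) :
    φ ∈ Res ρ σ lam g a b c := aut_Res' H.hdiv f hφ

/-- The hypotheses do not depend on the coordinates. -/
theorem Hyp.trip {b' c' : kˣ} {j l : Oct a b c} (ht : Trip a b' c' gi j l) :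
    Hyp ρ σ lam g al s a b' c' :=
  { H with
    hdiv := (aniso_of_trip H.hdiv ht).2.2.2
    hre := fun τ ha => (Dfn.trip (w := τ) ⟨ha, H.hre τ ha⟩ ht).2 }

theorem trip_Res {b' c' : kˣ} {j l : Oct a b c} (ht : Trip a b' c' gi j l)
    {Ψ : AlbL E a b' c' ≃ₗ[E] AlbL E a b c}
    (hΨ : ∀ x, Ψ x = Alb.omapA (emb (oup E gi) (oup E j) (oup E l)) x)
    {φ : AlbL E a b' c' ≃ₗ[E] AlbL E a b' c'} :
    (φ ∈ GO ρ σ lam g a b' c' ↔ (Ψ.symm.trans φ).trans Ψ ∈ GO ρ σ lam g a b c) ∧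
      (φ ∈ Res ρ σ lam g a b' c' ↔ (Ψ.symm.trans φ).trans Ψ ∈ Res ρ σ lam g a b c) :=
  trip_Res' ht hΨ

/-- Every `w` is the third element of a basic triple with first element `i`. -/
theorem exists_trip {w : Oct a b c} (hw : Perp w) :
    ∃ (b' c' : kˣ) (j : Oct a b c), Trip a b' c' gi j w := by
  have pure_of : ∀ w : Oct a b c, dot w 1 = 0 → star w = -w := by
    intro w hw
    apply star_neg_of_pure
    rw [bil_eq_dot, hw, mul_zero]
  have hi : star (gi : Oct a b c) = -gi := by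
    apply ext8 <;> simp [gi]
  have hii : (gi : Oct a b c) * gi = (a : k) • (1 : Oct a b c) := by
    apply ext8 <;> simp [gi]
  obtain ⟨j, hj0, hj⟩ := exists_perp ![1, gi, w, gi * w, 1, 1, 1]
  have hj1 : dot j 1 = 0 := hj 0
  have hji : dot j gi = 0 := hj 1
  have hjw : dot j w = 0 := hj 2
  have hjiw : dot j (gi * w) = 0 := hj 3
  have hjs := pure_of j hj1
  refine ⟨Units.mk0 (-norm j) (neg_ne_zero.2 fun h => hj0 (H.hdiv j h)),
    Units.mk0 (-norm w) (neg_ne_zero.2 fun h => hw.ne (H.hdiv w h)), j,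
    ⟨hi, hjs, hw.tr, hii, norm_eq_of_sq hjs, norm_eq_of_sq hw.tr, by rw [dot_comm, hji],
      hw.i, hjw, ?_⟩⟩
  rw [dot_mul_left, hi, neg_mul, dot_neg_right, hjiw, neg_zero]

end Vale.Agent.P011.E6O
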