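import Vale.Agent.P011.E6I.H69.ResB
import Vale.Agent.P011.E6O.Defs

/-!
Block E6O: the finite residual of the group, the automorphisms of the octonion algebra, and the
changes of the quaternion subalgebra.
-/

open NumberField Matrix

namespace Vale.Agent.P011.E6O

open Vale.Agent.P011.MPQ Vale.Agent.P011.D4 Vale.Agent.P011.D4.Oct Vale.Agent.P011.E6
open Vale.Agent.P011.E6.Alb

/-- The finite residual: the intersection of all subgroups of finite index. -/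
def fres (G : Type) [Group G] : Subgroup G := sInf {N : Subgroup G | N.index ≠ 0}

section grp

variable {G H : Type} [Group G] [Group H]

theorem mem_fres {g : G} : g ∈ fres G ↔ ∀ N : Subgroup G, N.index ≠ 0 → g ∈ N := by
  rw [fres, Subgroup.mem_sInf]
  rfl

theorem fres_le {N : Subgroup G} (hN : N.index ≠ 0) : fres G ≤ N := fun _ hg => mem_fres.mp hg N hN

theorem index_comap_ne {f : G →* H} {N : Subgroup H} (hN : N.index ≠ 0) :
    (N.comap f).index ≠ 0 := by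
  rw [Subgroup.index_comap]
  have : N.FiniteIndex := ⟨hN⟩
  exact (Subgroup.instFiniteIndex_subgroupOf N f.range).index_ne_zero

theorem map_fres_le (f : G →* H) : fres G ≤ (fres H).comap f := by
  intro g hg
  rw [Subgroup.mem_comap, mem_fres]
  intro N hN
  exact mem_fres.mp hg _ (index_comap_ne hN)

theorem fres_equiv (e : G ≃* H) {g : G} : g ∈ fres G ↔ e g ∈ fres H := by
  constructor
  · intro h
    exact map_fres_le e.toMonoidHom h
  · intro h
    have h1 : e.symm (e g) ∈ fres G := map_fres_le e.symm.toMonoidHom h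
    rwa [MulEquiv.symm_apply_apply] at h1

instance fres_normal : (fres G).Normal := by
  constructor
  intro n hn g
  exact (fres_equiv (MulAut.conj g)).mp hn

theorem top_of_fres (h : fres G = ⊤) {N : Subgroup G} (hN : N.index ≠ 0) : N = ⊤ :=
  top_le_iff.mp (h ▸ fres_le hN)

end grp

section res

variable {k E : Type} [Field k] [Field E] [Algebra k E]

variable {ρ σ : E ≃ₐ[k] E} {lam : Eˣ} {γ : Fin 3 → Eˣ} {a b c : kˣ}

theorem Res_eq : Res ρ σ lam γ a b c =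
    (fres (GO ρ σ lam γ a b c)).map (GO ρ σ lam γ a b c).subtype := rfl

theorem mem_Res' {φ : AlbL E a b c ≃ₗ[E] AlbL E a b c} (hφ : φ ∈ GO ρ σ lam γ a b c) :
    φ ∈ Res ρ σ lam γ a b c ↔ (⟨φ, hφ⟩ : GO ρ σ lam γ a b c) ∈ fres (GO ρ σ lam γ a b c) := by
  rw [Res_eq, Subgroup.mem_map]
  constructor
  · rintro ⟨x, hx, hxφ⟩
    have h1 : x = ⟨φ, hφ⟩ := Subtype.ext hxφ
    rwa [← h1]
  · intro h
    exact ⟨_, h, rfl⟩

theorem mem_Res {φ : AlbL E a b c ≃ₗ[E] AlbL E a b c} (hφ : φ ∈ GO ρ σ lam γ a b c) :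
    φ ∈ Res ρ σ lam γ a b c ↔
      ∀ N : Subgroup (GO ρ σ lam γ a b c), N.index ≠ 0 → ⟨φ, hφ⟩ ∈ N := by
  rw [mem_Res' hφ, mem_fres]

theorem Res_le : Res ρ σ lam γ a b c ≤ GO ρ σ lam γ a b c := by
  rintro φ ⟨x, -, rfl⟩
  exact x.2

/-- The finite residual is normal. -/
theorem Res_conj {φ ψ : AlbL E a b c ≃ₗ[E] AlbL E a b c} (hφ : φ ∈ GO ρ σ lam γ a b c)
    (hψ : ψ ∈ Res ρ σ lam γ a b c) : φ * ψ * φ⁻¹ ∈ Res ρ σ lam γ a b c := by
  have h1 := Res_le hψ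
  have h2 := (mem_Res' h1).mp hψ
  have h3 := fres_normal.conj_mem _ h2 ⟨φ, hφ⟩
  have h4 : φ * ψ * φ⁻¹ ∈ GO ρ σ lam γ a b c := mul_mem (mul_mem hφ h1) (inv_mem hφ)
  rw [mem_Res' h4]
  have h5 : (⟨φ * ψ * φ⁻¹, h4⟩ : GO ρ σ lam γ a b c) = ⟨φ, hφ⟩ * ⟨ψ, h1⟩ * ⟨φ, hφ⟩⁻¹ := by
    apply Subtype.ext
    rw [Subgroup.coe_mul, Subgroup.coe_mul, Subgroup.coe_inv]
  rw [h5]
  exact h3

/-- The subgroups of finite index, if the residual is everything. -/
theorem top_of_Res (h : Res ρ σ lam γ a b c = GO ρ σ lam γ a b c)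
    {N : Subgroup (GO ρ σ lam γ a b c)} (hN : N.index ≠ 0) : N = ⊤ := by
  rw [eq_top_iff]
  intro x _
  have h1 : x.1 ∈ Res ρ σ lam γ a b c := by
    rw [h]
    exact x.2
  exact (mem_Res x.2).mp h1 N hN

theorem ph_rlin (f : Rl.Rel a b c) (h12 : f.1.1 = f.1.2.1) (h13 : f.1.1 = f.1.2.2)
    (x : AlbL E a b c) : Rl.rlin E f (ph ρ lam x) = ph ρ lam (Rl.rlin E f x) := by
  rw [Rl.rlin_apply, Rl.rlin_apply]
  simp only [ph, Rl.omap_extE, map_smul, ← h12, ← h13]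

theorem her_rlin [NeZero (2 : E)] (r : Rl.Rel a b c) (x y : AlbL E a b c) :
    her σ γ (Rl.rlin E r x) (Rl.rlin E r y) = her σ γ x y := by
  obtain ⟨n1, n2, n3, H⟩ := r.2
  rw [her, her, Rl.rlin_apply, Rl.rlin_apply]
  simp only [tf, wt, amap, Rl.omap_extE, bil_smul_left]
  rw [Rl.extE_bil (Rl.bil_of_norm n1), Rl.extE_bil (Rl.bil_of_norm n2),
    Rl.extE_bil (Rl.bil_of_norm n3)]

variable [NeZero (2 : k)] [NeZero (2 : E)]

variable (ρ σ lam γ a b c) in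
/-- The automorphisms of the octonion algebra, as elements of the group. -/
def autO : AutC a b c →* GO ρ σ lam γ a b c where
  toFun f := ⟨Rl.rlin E (Rl.autR a b c f), ⟨(Rl.rlin_mem σ 1 _).1, ph_rlin _ rfl rfl,
    her_rlin _⟩⟩
  map_one' := Subtype.ext (Rl.alb_unique' fun x => by
    rw [Rl.rlin_aup]
    rfl)
  map_mul' f g := Subtype.ext (Rl.alb_unique' fun x => by
    rw [Rl.rlin_aup]
    change _ = Rl.rlin E (Rl.autR a b c f) (Rl.rlin E (Rl.autR a b c g) (aup E x))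
    rw [Rl.rlin_aup, Rl.rlin_aup]
    rfl)

theorem autO_aup (f : AutC a b c) (x : Alb a b c) :
    (autO ρ σ lam γ a b c f).1 (aup E x) = aup E (Alb.omapA f.1 x) := Rl.rlin_aup _ _

end res

section main

variable {k E : Type} [Field k] [NumberField k] [Field E] [NumberField E] [Algebra k E]
  {ρ σ : E ≃ₐ[k] E} {lam : Eˣ} {γ : Fin 3 → Eˣ} {a b c : kˣ}

/-- The automorphisms of the octonion algebra belong to the finite residual. -/
theorem autO_mem (hdiv : Division a b c) (f : AutC a b c) :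
    autO ρ σ lam γ a b c f ∈ fres (GO ρ σ lam γ a b c) := by
  rw [mem_fres]
  intro N hN
  have : N.FiniteIndex := ⟨hN⟩
  have h2 : N.normalCore.comap (autO ρ σ lam γ a b c) = ⊤ := by
    apply g2 hdiv
    · exact N.normalCore_normal.comap _
    · exact index_comap_ne Subgroup.FiniteIndex.index_ne_zero
  have h3 : f ∈ N.normalCore.comap (autO ρ σ lam γ a b c) := by
    rw [h2]
    exact Subgroup.mem_top f
  exact N.normalCore_le h3

/-- The automorphisms of the octonion algebra belong to the finite residual. -/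
theorem aut_Res' (hdiv : Division a b c) (f : AutC a b c) {φ : AlbL E a b c ≃ₗ[E] AlbL E a b c}
    (hφ : ∀ x : Alb a b c, φ (aup E x) = aup E (Alb.omapA f.1 x)) :
    φ ∈ Res ρ σ lam γ a b c := by
  have h : φ = (autO ρ σ lam γ a b c f).1 := Rl.alb_unique' fun x => by rw [hφ, autO_aup]
  rw [h]
  exact ⟨_, autO_mem hdiv f, rfl⟩

/-- A linear map that commutes with the structure, as an element of the group. -/
theorem conj_mem_GO {a' b' c' : kˣ} {Ψ : AlbL E a' b' c' ≃ₗ[E] AlbL E a b c}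
    (h1 : ∀ x, Alb.cub (Ψ x) = Alb.cub x) (h2 : ∀ x, ph ρ lam (Ψ x) = Ψ (ph ρ lam x))
    (h3 : ∀ x y, her σ γ (Ψ x) (Ψ y) = her σ γ x y)
    (φ : AlbL E a' b' c' ≃ₗ[E] AlbL E a' b' c') :
    φ ∈ GO ρ σ lam γ a' b' c' ↔ E6I.conjE Ψ φ ∈ GO ρ σ lam γ a b c := by
  have h : ∀ x, E6I.conjE Ψ φ (Ψ x) = Ψ (φ x) := fun x =>
    congrArg (fun y => Ψ (φ y)) (Ψ.symm_apply_apply x)
  constructor
  · rintro ⟨h4, h5, h6⟩
    refine ⟨fun x => ?_, fun x => ?_, fun x y => ?_⟩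
    · obtain ⟨y, rfl⟩ := Ψ.surjective x
      rw [h, h1, h1, h4]
    · obtain ⟨y, rfl⟩ := Ψ.surjective x
      rw [h, h2, h, h5, h2]
    · obtain ⟨x, rfl⟩ := Ψ.surjective x
      obtain ⟨y, rfl⟩ := Ψ.surjective y
      rw [h, h, h3, h3, h6]
  · rintro ⟨h4, h5, h6⟩
    refine ⟨fun x => ?_, fun x => ?_, fun x y => ?_⟩
    · rw [← h1, ← h1 x, ← h, h4]
    · apply Ψ.injective
      rw [← h2, ← h, ← h, ← h2, h5]
    · rw [← h3, ← h3 x, ← h, ← h, h6]

/-- An isomorphism that identifies the groups, as an isomorphism of groups. -/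
def conjO {a' b' c' : kˣ} {Ψ : AlbL E a' b' c' ≃ₗ[E] AlbL E a b c}
    (h : ∀ φ, φ ∈ GO ρ σ lam γ a' b' c' ↔ E6I.conjE Ψ φ ∈ GO ρ σ lam γ a b c) :
    GO ρ σ lam γ a' b' c' ≃* GO ρ σ lam γ a b c where
  toFun := fun x => ⟨E6I.conjE Ψ x.1, (h x.1).mp x.2⟩
  invFun := fun y => ⟨(E6I.conjE Ψ).symm y.1, (h _).mpr (by
    rw [MulEquiv.apply_symm_apply]; exact y.2)⟩
  left_inv := fun x => Subtype.ext ((E6I.conjE Ψ).symm_apply_apply x.1)
  right_inv := fun y => Subtype.ext ((E6I.conjE Ψ).apply_symm_apply y.1)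
  map_mul' := fun x y => Subtype.ext (map_mul (E6I.conjE Ψ) x.1 y.1)

theorem conj_Res {a' b' c' : kˣ} {Ψ : AlbL E a' b' c' ≃ₗ[E] AlbL E a b c}
    (h : ∀ φ, φ ∈ GO ρ σ lam γ a' b' c' ↔ E6I.conjE Ψ φ ∈ GO ρ σ lam γ a b c)
    {φ : AlbL E a' b' c' ≃ₗ[E] AlbL E a' b' c'} :
    φ ∈ Res ρ σ lam γ a' b' c' ↔ E6I.conjE Ψ φ ∈ Res ρ σ lam γ a b c := by
  constructor
  · intro h3
    have h4 := Res_le h3
    rw [mem_Res' h4, fres_equiv (conjO h)] at h3
    rw [mem_Res' ((h φ).mp h4)]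
    exact h3
  · intro h3
    have h4 := (h φ).mpr (Res_le h3)
    rw [mem_Res' ((h φ).mp h4)] at h3
    rw [mem_Res' h4, fres_equiv (conjO h)]
    exact h3

/-- Change of the quaternion subalgebra: the cubic norm, the semilinear map and the hermitian
form. -/
theorem trip_str {a' b' c' : kˣ} {i j l : Oct a b c} (ht : Trip a' b' c' i j l) :
    (∀ x, Alb.cub (tripA E ht x) = Alb.cub x) ∧
      (∀ x, ph ρ lam (tripA E ht x) = tripA E ht (ph ρ lam x)) ∧
        ∀ x y, her σ γ (tripA E ht x) (tripA E ht y) = her σ γ x y := by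
  refine ⟨fun x => Alb.cub_mapE (tripO_mul ht) x, fun x => ?_, fun x y => ?_⟩
  · simp only [tripA, Alb.mapE_apply, Alb.omapA, ph, tripO_omap, map_smul]
  · have h1 : amap σ (tripA E ht y) = tripA E ht (amap σ y) := by
      simp only [tripA, Alb.mapE_apply, Alb.omapA, amap, tripO_omap]
    rw [her, h1]
    change Alb.tf (Alb.wt γ (Alb.mapE (tripO E ht) x)) (Alb.mapE (tripO E ht) (amap σ y)) = _
    rw [Alb.wt_mapE, Alb.tf_mapE (tripO_mul ht)]
    rfl

/-- Change of the quaternion subalgebra. -/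
theorem trip_Res' {a' b' c' : kˣ} {i j l : Oct a b c} (ht : Trip a' b' c' i j l)
    {Ψ : AlbL E a' b' c' ≃ₗ[E] AlbL E a b c}
    (hΨ : ∀ x, Ψ x = Alb.omapA (emb (oup E i) (oup E j) (oup E l)) x)
    {φ : AlbL E a' b' c' ≃ₗ[E] AlbL E a' b' c'} :
    (φ ∈ GO ρ σ lam γ a' b' c' ↔ (Ψ.symm.trans φ).trans Ψ ∈ GO ρ σ lam γ a b c) ∧
      (φ ∈ Res ρ σ lam γ a' b' c' ↔ (Ψ.symm.trans φ).trans Ψ ∈ Res ρ σ lam γ a b c) := by
  obtain rfl : Ψ = tripA E ht := by
    apply LinearEquiv.ext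
    intro x
    rw [hΨ, tripA_apply]
  obtain ⟨h1, h2, h3⟩ := trip_str (ρ := ρ) (σ := σ) (lam := lam) (γ := γ) ht
  exact ⟨conj_mem_GO h1 h2 h3 φ, conj_Res (conj_mem_GO h1 h2 h3)⟩

end main

end Vale.Agent.P011.E6O
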