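import Vale.Agent.P011.E6O.H69.Res
import Vale.Agent.P011.E6O.H68.Split

/-!
Block E6O: the action of the matrices over the quaternions.
-/

open NumberField Matrix

namespace Vale.Agent.P011.E6O.H69

open Vale.Agent.P011.MPQ Vale.Agent.P011.D4 Vale.Agent.P011.D4.Oct Vale.Agent.P011.E6
open Vale.Agent.P011.E6.Alb
open Vale.Agent.P011.E6I (MQ toMQ toMQ_mul toMQ_one toMQ_apply)

section gen

variable {k E : Type} [Field k] [Field E] [Algebra k E] {ρ σ : E ≃ₐ[k] E} {lam : Eˣ}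
  {g : Fin 3 → Eˣ} {a b c : kˣ}

/-- The inverse of `u`. -/
def wm (lam : Eˣ) : Matrix (Fin 3) (Fin 3) E := !![0, 1, 0; 0, 0, 1; (lam : E), 0, 0]

theorem um_mul_wm : um lam * wm lam = 1 := by
  apply Matrix.ext
  intro i j
  fin_cases i <;> fin_cases j <;> simp [um, wm, Matrix.mul_apply, Fin.sum_univ_three]

theorem wm_mul_um : wm lam * um lam = 1 := by
  apply Matrix.ext
  intro i j
  fin_cases i <;> fin_cases j <;> simp [um, wm, Matrix.mul_apply, Fin.sum_univ_three]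

theorem uq_mul_wq : (toMQ (um lam) : MQ E a b) * toMQ (wm lam) = 1 := by
  rw [← toMQ_mul, um_mul_wm, toMQ_one]

theorem wq_mul_uq : (toMQ (wm lam) : MQ E a b) * toMQ (um lam) = 1 := by
  rw [← toMQ_mul, wm_mul_um, toMQ_one]

/-- The matrix `u`, as a unit. -/
def uU (lam : Eˣ) {a b : kˣ} : (MQ E a b)ˣ :=
  ⟨toMQ (um lam), toMQ (wm lam), uq_mul_wq, wq_mul_uq⟩

theorem uq_mul_apply (S : MQ E a b) (i j : Fin 3) :
    ((toMQ (um lam) : MQ E a b) * S) i j =
      (![((lam⁻¹ : Eˣ) : E) • S 2 j, S 0 j, S 1 j] : Fin 3 → Qt (up E a) (up E b)) i := by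
  have h0 : (((0 : E) : Qt (up E a) (up E b))) = 0 := rfl
  have h1 : (((1 : E) : Qt (up E a) (up E b))) = 1 := rfl
  rw [Matrix.mul_apply, Fin.sum_univ_three]
  simp only [toMQ_apply]
  fin_cases i
  · change ((0 : E) : Qt (up E a) (up E b)) * S 0 j + ((0 : E) : Qt (up E a) (up E b)) * S 1 j +
      (((lam⁻¹ : Eˣ) : E) : Qt (up E a) (up E b)) * S 2 j = ((lam⁻¹ : Eˣ) : E) • S 2 j
    rw [h0, zero_mul, zero_mul, zero_add, zero_add, QuaternionAlgebra.coe_mul_eq_smul]
  · change ((1 : E) : Qt (up E a) (up E b)) * S 0 j + ((0 : E) : Qt (up E a) (up E b)) * S 1 j +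
      ((0 : E) : Qt (up E a) (up E b)) * S 2 j = S 0 j
    rw [h0, h1, zero_mul, zero_mul, one_mul, add_zero, add_zero]
  · change ((0 : E) : Qt (up E a) (up E b)) * S 0 j + ((1 : E) : Qt (up E a) (up E b)) * S 1 j +
      ((0 : E) : Qt (up E a) (up E b)) * S 2 j = S 1 j
    rw [h0, h1, zero_mul, zero_mul, one_mul, add_zero, zero_add]

theorem mul_uq_apply (S : MQ E a b) (i j : Fin 3) :
    (S * (toMQ (um lam) : MQ E a b)ᴴ) i j =
      (![((lam⁻¹ : Eˣ) : E) • S i 2, S i 0, S i 1] : Fin 3 → Qt (up E a) (up E b)) j := by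
  have h0 : (((0 : E) : Qt (up E a) (up E b))) = 0 := rfl
  have h1 : (((1 : E) : Qt (up E a) (up E b))) = 1 := rfl
  rw [Matrix.mul_apply, Fin.sum_univ_three]
  simp only [Matrix.conjTranspose_apply, toMQ_apply, H64.star_coe']
  fin_cases j
  · change S i 0 * ((0 : E) : Qt (up E a) (up E b)) + S i 1 * ((0 : E) : Qt (up E a) (up E b)) +
      S i 2 * (((lam⁻¹ : Eˣ) : E) : Qt (up E a) (up E b)) = ((lam⁻¹ : Eˣ) : E) • S i 2
    rw [h0, mul_zero, mul_zero, zero_add, zero_add, ← QuaternionAlgebra.coe_commutes,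
      QuaternionAlgebra.coe_mul_eq_smul]
  · change S i 0 * ((1 : E) : Qt (up E a) (up E b)) + S i 1 * ((0 : E) : Qt (up E a) (up E b)) +
      S i 2 * ((0 : E) : Qt (up E a) (up E b)) = S i 0
    rw [h0, h1, mul_zero, mul_zero, mul_one, add_zero, add_zero]
  · change S i 0 * ((0 : E) : Qt (up E a) (up E b)) + S i 1 * ((1 : E) : Qt (up E a) (up E b)) +
      S i 2 * ((0 : E) : Qt (up E a) (up E b)) = S i 1
    rw [h0, h1, mul_zero, mul_zero, mul_one, add_zero, zero_add]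

theorem mat_ph (x : AlbL E a b c) : mat (ph ρ lam x) = (lam : E) •
    ((toMQ (um lam) : MQ E a b) * (mat x).map (qmap ρ) * (toMQ (um lam) : MQ E a b)ᴴ) := by
  have hl : (lam : E) * ((lam⁻¹ : Eˣ) : E) = 1 := Units.mul_inv _
  apply Matrix.ext
  intro i j
  rw [Matrix.smul_apply, mul_uq_apply, uq_mul_apply, uq_mul_apply, uq_mul_apply]
  simp only [Matrix.map_apply]
  fin_cases i <;> fin_cases j
  · change ((((lam⁻¹ : Eˣ) : E) * ρ x.d3 : E) : Qt (up E a) (up E b)) = (lam : E) •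
      (((lam⁻¹ : Eˣ) : E) • (((lam⁻¹ : Eˣ) : E) •
        qmap ρ ((x.d3 : E) : Qt (up E a) (up E b))))
    rw [smul_smul, hl, one_smul, H64.qmap_coe, QuaternionAlgebra.coe_mul,
      QuaternionAlgebra.coe_mul_eq_smul]
  · change qmap ρ x.x2.fst = (lam : E) • (((lam⁻¹ : Eˣ) : E) • qmap ρ x.x2.fst)
    rw [smul_smul, hl, one_smul]
  · change star (qmap ρ x.x1.fst) =
      (lam : E) • (((lam⁻¹ : Eˣ) : E) • qmap ρ (star x.x1.fst))
    rw [smul_smul, hl, one_smul, qmap_star]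
  · change star (qmap ρ x.x2.fst) =
      (lam : E) • (((lam⁻¹ : Eˣ) : E) • qmap ρ (star x.x2.fst))
    rw [smul_smul, hl, one_smul, qmap_star]
  · change ((lam * ρ x.d1 : E) : Qt (up E a) (up E b)) = (lam : E) •
      qmap ρ ((x.d1 : E) : Qt (up E a) (up E b))
    rw [H64.qmap_coe, QuaternionAlgebra.coe_mul, QuaternionAlgebra.coe_mul_eq_smul]
  · rfl
  · change qmap ρ x.x1.fst = (lam : E) • (((lam⁻¹ : Eˣ) : E) • qmap ρ x.x1.fst)
    rw [smul_smul, hl, one_smul]
  · change star ((lam : E) • qmap ρ x.x3.fst) = (lam : E) • qmap ρ (star x.x3.fst)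
    rw [qmap_star, QuaternionAlgebra.star_smul]
  · change ((lam * ρ x.d2 : E) : Qt (up E a) (up E b)) = (lam : E) •
      qmap ρ ((x.d2 : E) : Qt (up E a) (up E b))
    rw [H64.qmap_coe, QuaternionAlgebra.coe_mul, QuaternionAlgebra.coe_mul_eq_smul]

theorem row_vec_ph (x : AlbL E a b c) : H64.row (Alb.vec (ph ρ lam x)) =
    (H64.row (Alb.vec x)).map (qmap ρ) * (toMQ (wm lam) : MQ E a b) := by
  have h0 : (((0 : E) : Qt (up E a) (up E b))) = 0 := rfl
  have h1 : (((1 : E) : Qt (up E a) (up E b))) = 1 := rfl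
  apply Matrix.ext
  intro i j
  rw [Matrix.mul_apply, Fin.sum_univ_three]
  simp only [toMQ_apply, Matrix.map_apply]
  fin_cases j
  · change (lam : E) • qmap ρ x.x3.snd = qmap ρ x.x1.snd * ((0 : E) : Qt (up E a) (up E b)) +
      qmap ρ x.x2.snd * ((0 : E) : Qt (up E a) (up E b)) +
        qmap ρ x.x3.snd * ((lam : E) : Qt (up E a) (up E b))
    rw [h0, mul_zero, mul_zero, zero_add, zero_add, ← QuaternionAlgebra.coe_commutes,
      QuaternionAlgebra.coe_mul_eq_smul]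
  · change qmap ρ x.x1.snd = qmap ρ x.x1.snd * ((1 : E) : Qt (up E a) (up E b)) +
      qmap ρ x.x2.snd * ((0 : E) : Qt (up E a) (up E b)) +
        qmap ρ x.x3.snd * ((0 : E) : Qt (up E a) (up E b))
    rw [h0, h1, mul_zero, mul_zero, mul_one, add_zero, add_zero]
  · change qmap ρ x.x2.snd = qmap ρ x.x1.snd * ((0 : E) : Qt (up E a) (up E b)) +
      qmap ρ x.x2.snd * ((1 : E) : Qt (up E a) (up E b)) +
        qmap ρ x.x3.snd * ((0 : E) : Qt (up E a) (up E b))
    rw [h0, h1, mul_zero, mul_zero, mul_one, add_zero, zero_add]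

theorem inD_one : InD ρ lam (1 : MQ E a b) := by
  have h : (1 : MQ E a b).map (qmap ρ) = 1 := (H64.qmapH ρ a b).mapMatrix.map_one
  rw [InD, h, Matrix.one_mul, Matrix.mul_one]

theorem inD_mul {m m' : MQ E a b} (hm : InD ρ lam m) (hm' : InD ρ lam m') :
    InD ρ lam (m * m') := by
  rw [InD] at *
  rw [H64.map_mul_qmap, Matrix.mul_assoc, hm', ← Matrix.mul_assoc, hm, Matrix.mul_assoc]

theorem inD_inv {m : (MQ E a b)ˣ} (hm : InD ρ lam (m : MQ E a b)) :
    InD ρ lam ((m⁻¹ : (MQ E a b)ˣ) : MQ E a b) := by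
  have h1 : m * uU lam = uU lam * H64.umap ρ m := Units.ext hm
  have h2 : m⁻¹ * uU lam = uU lam * H64.umap ρ m⁻¹ := by
    rw [map_inv, inv_mul_eq_iff_eq_mul, ← mul_assoc, h1, mul_assoc, mul_inv_cancel, mul_one]
  exact congrArg Units.val h2

theorem inD_comm_wq {m : MQ E a b} (hm : InD ρ lam m) :
    (toMQ (wm lam) : MQ E a b) * m = m.map (qmap ρ) * toMQ (wm lam) := by
  calc (toMQ (wm lam) : MQ E a b) * m =
      toMQ (wm lam) * (m * toMQ (um lam)) * toMQ (wm lam) := by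
        simp only [Matrix.mul_assoc]
        rw [uq_mul_wq, Matrix.mul_one]
    _ = (toMQ (wm lam) * toMQ (um lam)) * m.map (qmap ρ) * toMQ (wm lam) := by
        rw [hm]
        simp only [Matrix.mul_assoc]
    _ = _ := by rw [wq_mul_uq, Matrix.one_mul]

/-- The semilinear map commutes with the action. -/
theorem ph_act' [NeZero (2 : E)] {m : (MQ E a b)ˣ} (hm : InD ρ lam (m : MQ E a b))
    {κ : Qt (up E a) (up E b)} (hκ : qmap ρ κ = κ) (x : AlbL E a b c) :
    ph ρ lam (Alb.act m κ x) = Alb.act m κ (ph ρ lam x) := by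
  apply H64.ext_mat_vec
  · rw [mat_ph, mat_act, mat_act, mat_ph, H64.map_mul_qmap, H64.map_mul_qmap,
      H64.map_qmap_conjTranspose, Matrix.mul_smul, Matrix.smul_mul]
    congr 1
    have h1 : (toMQ (um lam) : MQ E a b) * (m : MQ E a b).map (qmap ρ) =
      (m : MQ E a b) * toMQ (um lam) := hm.symm
    have h2 := congrArg Matrix.conjTranspose h1
    rw [Matrix.conjTranspose_mul, Matrix.conjTranspose_mul] at h2
    calc _ = ((toMQ (um lam) : MQ E a b) * (m : MQ E a b).map (qmap ρ)) *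
          (mat x).map (qmap ρ) * (((m : MQ E a b).map (qmap ρ))ᴴ *
            (toMQ (um lam) : MQ E a b)ᴴ) := by simp only [Matrix.mul_assoc]
      _ = _ := by rw [h1, h2]; simp only [Matrix.mul_assoc]
  · have h3 := inD_comm_wq (inD_inv hm)
    rw [row_vec_ph, H64.row_vec_act, H64.row_vec_act, row_vec_ph, H64.map_mul_qmap,
      H64.map_mul_qmap, H64.q1_map, hκ]
    simp only [Matrix.mul_assoc]
    rw [h3]

/-- The hermitian form and the action. -/
theorem her_act [NeZero (2 : E)] {μ : Eˣ} {m : (MQ E a b)ˣ} (hm : IsUn σ g (μ : E) (m : MQ E a b))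
    {κ : Qt (up E a) (up E b)}
    (hκ : star (qmap σ κ) * κ = (((μ : E) ^ 3 : E) : Qt (up E a) (up E b)))
    (x y : AlbL E a b c) : her σ g (Alb.act m κ x) (Alb.act m κ y) = (μ : E) ^ 2 * her σ g x y := by
  have h2 : (2 : E) ≠ 0 := NeZero.ne 2
  have h : ((H64.umap σ m : (MQ E a b)ˣ) : MQ E a b)ᴴ * dg (up E a) (up E b) g * (m : MQ E a b) =
      dg (up E a) (up E b) fun i => μ * g i := by
    rw [H64.umap_val, hm]
    apply Matrix.ext
    intro i j
    rw [Matrix.smul_apply, dg, dg]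
    by_cases hij : i = j
    · subst hij
      rw [Matrix.diagonal_apply_eq, Matrix.diagonal_apply_eq, Units.val_mul, map_mul,
        Algebra.smul_def]
    · rw [Matrix.diagonal_apply_ne _ hij, Matrix.diagonal_apply_ne _ hij, smul_zero]
  have hr : (g 0 * g 1 * g 2 : E) * (μ : E) ^ 3 =
      ((μ * g 0 : Eˣ) : E) * ((μ * g 1 : Eˣ) : E) * ((μ * g 2 : Eˣ) : E) := by
    simp only [Units.val_mul]
    ring
  rw [her, her, H64.amap_act h2, H64.tf_act h2 (g' := fun i => μ * g i) h hκ hr x (amap σ y)]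
  simp only [tf, wt, Units.val_mul, bil_smul_left]
  ring

/-- The special unitary matrices act. -/
theorem act_mem [NeZero (2 : E)] {al : E} (hal : al * al = algebraMap k E a) {m : (MQ E a b)ˣ}
    (hm : InD ρ lam (m : MQ E a b)) (hu : IsUn σ g 1 (m : MQ E a b))
    (hn : nu (m : MQ E a b) = 1) :
    (H64.actL two_ne_zero m 1 : AlbL E a b c ≃ₗ[E] AlbL E a b c) ∈ GO ρ σ lam g a b c := by
  have h2 : (2 : E) ≠ 0 := NeZero.ne 2
  refine ⟨fun x => ?_, fun x => ?_, fun x y => ?_⟩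
  · rw [H64.actL_apply, Units.val_one, H68.cub_actS (H68.spq h2 hal) h2 m (by rw [hn]; exact nrd_one), hn,
      one_mul]
  · rw [H64.actL_apply, H64.actL_apply, Units.val_one]
    exact (ph_act' hm (qmap_one ρ) x).symm
  · rw [H64.actL_apply, H64.actL_apply, Units.val_one,
      her_act (μ := 1) hu (by rw [qmap_one, star_one, mul_one, Units.val_one, one_pow]; rfl),
      Units.val_one, one_pow, one_mul]

/-- The special unitary matrices act. -/
theorem exists_act' [NeZero (2 : E)] {al : E} (hal : al * al = algebraMap k E a) {m : (MQ E a b)ˣ}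
    (hm : InD ρ lam (m : MQ E a b)) (hu : IsUn σ g 1 (m : MQ E a b))
    (hn : nu (m : MQ E a b) = 1) :
    ∃ φ ∈ GO ρ σ lam g a b c, ∀ x, φ x = Alb.act m 1 x :=
  ⟨_, act_mem hal hm hu hn, fun x => by rw [H64.actL_apply, Units.val_one]⟩

end gen

end Vale.Agent.P011.E6O.H69
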